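import Vale.Agent.P181.BAL.Defs

set_option autoImplicit false

open scoped TensorProduct

/-!
# P181, BAL (helper676): values, products, the line of a highest weight vector
-/

namespace Vale.Agent.P181.BAL.H676

open Vale.Agent.P181 Vale.Agent.P181.H280 Vale.Agent.P181.H54 Vale.Agent.P181.FR Vale.Agent.P181.BAL

variable {a b B k n : ℕ}

/-- `ev` as a linear map. -/
noncomputable def evL (φ : Module.Dual ℂ (Sym[ℂ]^a (Fin n → ℂ))) : Pleth b a n →ₗ[ℂ] ℂ :=
  (symEval (fun _ : Fin b => φ) : (Sym[ℂ]^b (Sym[ℂ]^a (Fin n → ℂ))) →ₗ[ℂ] ℂ)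

lemma evL_apply (φ : Module.Dual ℂ (Sym[ℂ]^a (Fin n → ℂ))) (x : Pleth b a n) :
    evL φ x = ev φ x := rfl

lemma ev_act (φ : Module.Dual ℂ (Sym[ℂ]^a (Fin n → ℂ))) (g : Matrix (Fin n) (Fin n) ℂ)
    (x : Pleth b a n) :
    ev φ (plethAct b a n g x) = ev (φ ∘ₗ symMap a (Matrix.toLin' g)) x :=
  H54.symEval_symMap b (symMap a (Matrix.toLin' g)) (fun _ => φ)
    (x : Sym[ℂ]^b (Sym[ℂ]^a (Fin n → ℂ)))

lemma ev_inj {x y : Pleth b a n} (h : ∀ φ, ev φ x = ev φ y) : x = y := by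
  have key : ∀ x' y' : Sym[ℂ]^b (Sym[ℂ]^a (Fin n → ℂ)),
      (∀ φ : Module.Dual ℂ (Sym[ℂ]^a (Fin n → ℂ)), symEval (fun _ : Fin b => φ) x' =
        symEval (fun _ : Fin b => φ) y') → x' = y' := by
    intro x' y' h'
    rw [← sub_eq_zero]
    apply pv_inj
    intro φ
    rw [map_sub, h' φ, sub_self]
  exact key x y h

lemma ev_zero (φ : Module.Dual ℂ (Sym[ℂ]^a (Fin n → ℂ))) : ev φ (0 : Pleth b a n) = 0 :=
  (evL φ).map_zero

lemma ev_smul (φ : Module.Dual ℂ (Sym[ℂ]^a (Fin n → ℂ))) (c : ℂ) (x : Pleth b a n) :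
    ev φ (c • x) = c * ev φ x :=
  (evL φ).map_smul c x

lemma ev_sum {ι : Type*} (φ : Module.Dual ℂ (Sym[ℂ]^a (Fin n → ℂ))) (s : Finset ι)
    (x : ι → Pleth b a n) : ev φ (∑ i ∈ s, x i) = ∑ i ∈ s, ev φ (x i) :=
  map_sum (evL φ) x s

lemma exists_mulE (y : Pleth B a n) : ∃ L : Pleth b a n →ₗ[ℂ] Pleth (b + B) a n,
    ∀ (φ : Module.Dual ℂ (Sym[ℂ]^a (Fin n → ℂ))) (x : Pleth b a n),
      ev φ (L x) = ev φ y * ev φ x := by
  obtain ⟨L, hL⟩ := exists_mul (M := Sym[ℂ]^a (Fin n → ℂ)) (b := b) (B := B) y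
  refine ⟨((Fintype.card (Equiv.Perm (Fin b)) : ℂ) * (Fintype.card (Equiv.Perm (Fin B)) : ℂ) *
    (Fintype.card (Equiv.Perm (Fin (b + B))) : ℂ)⁻¹) • L, ?_⟩
  intro φ x
  have h1 : (Fintype.card (Equiv.Perm (Fin b)) : ℂ) * (Fintype.card (Equiv.Perm (Fin B)) : ℂ) *
      ev φ (L x) = (Fintype.card (Equiv.Perm (Fin (b + B))) : ℂ) * (ev φ y * ev φ x) := hL φ x
  have h2 : (Fintype.card (Equiv.Perm (Fin (b + B))) : ℂ) ≠ 0 := fac_ne _
  have h3 := ev_smul φ ((Fintype.card (Equiv.Perm (Fin b)) : ℂ) *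
    (Fintype.card (Equiv.Perm (Fin B)) : ℂ) *
    (Fintype.card (Equiv.Perm (Fin (b + B))) : ℂ)⁻¹) (L x)
  refine (show ev φ ((((Fintype.card (Equiv.Perm (Fin b)) : ℂ) *
    (Fintype.card (Equiv.Perm (Fin B)) : ℂ) *
    (Fintype.card (Equiv.Perm (Fin (b + B))) : ℂ)⁻¹) • L) x) = _ from h3).trans ?_
  field_simp
  linear_combination h1

lemma act_one (x : Pleth b a n) : plethAct b a n 1 x = x := by
  apply ev_inj
  intro φ
  rw [ev_act, Matrix.toLin'_one]
  have h : symMap a (LinearMap.id : (Fin n → ℂ) →ₗ[ℂ] (Fin n → ℂ)) = LinearMap.id := by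
    apply LinearMap.ext
    intro y
    rw [symMap_id_apply]
    rfl
  rw [h, LinearMap.comp_id]

lemma ns_zero (k : ℕ) : ns k 0 = 1 := by
  rw [ns, Matrix.single_zero, add_zero]

lemma g0_borel (k : ℕ) : IsBorel (1 + Matrix.single 0 1 1 : Matrix (Fin (k + 2)) (Fin (k + 2)) ℂ) := by
  constructor
  · intro i j hij
    rw [Matrix.add_apply, Matrix.one_apply_ne (ne_of_gt hij), Matrix.single_apply]
    rw [if_neg]
    · simp
    · rintro ⟨rfl, rfl⟩
      exact absurd hij (by simp)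
  · intro i
    rw [Matrix.add_apply, Matrix.one_apply_eq, Matrix.single_apply, if_neg]
    · simp
    · rintro ⟨rfl, h⟩
      exact absurd h (by simp)

lemma line_hw (h1 : Line) (h2 : Law) (h4 : Deg) {mu : Fin (k + 2) → ℕ} (hmu : mu 1 ≤ mu 0) :
    ∃ D : ℕ → (Pleth b a (k + 2) →ₗ[ℂ] Pleth b a (k + 2)),
      ∀ x ∈ hwSpace mu (plethAct b a (k + 2)), ∀ s : ℂ,
        plethAct b a (k + 2) (ns k s) x =
          ∑ i ∈ Finset.range (mu 0 - mu 1 + 1), s ^ i • D i x := by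
  obtain ⟨D, hD⟩ := h1 a b k
  set N := a * b with hN
  set R := mu 0 - mu 1 with hR
  refine ⟨fun i => if i ≤ N then D i else 0, fun x hx s => ?_⟩
  have hz : ∀ i, R < i → i ≤ N → D i x = 0 := by
    intro i hi1 hi2
    apply ev_inj
    intro φ
    rw [ev_zero]
    refine h4 R N (fun i => ev φ (D i x))
      (fun i => ev (φ ∘ₗ symMap a (Matrix.toLin' (1 + Matrix.single 0 1 1))) (D i x)) ?_ i hi1 hi2
    intro s hs
    have e1 : ∀ ψ : Module.Dual ℂ (Sym[ℂ]^a (Fin (k + 2) → ℂ)), ∀ s : ℂ,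
        ∑ i ∈ Finset.range (N + 1), ev ψ (D i x) * s ^ i =
          ev ψ (plethAct b a (k + 2) (ns k s) x) := by
      intro ψ s
      rw [hD, ev_sum]
      apply Finset.sum_congr rfl
      intro i _
      rw [ev_smul, mul_comm]
    have e2 := h2 a b k mu x hx hmu _ (g0_borel k) s (by
      simpa [Matrix.single_apply, Matrix.one_apply] using hs)
    have e3 : (1 + Matrix.single 0 1 1 : Matrix (Fin (k + 2)) (Fin (k + 2)) ℂ) 0 0 = 1 := by
      simp [Matrix.single_apply]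
    have e4 : (1 + Matrix.single 0 1 1 : Matrix (Fin (k + 2)) (Fin (k + 2)) ℂ) 0 1 = 1 := by
      simp [Matrix.single_apply]
    have e5 : (1 + Matrix.single 0 1 1 : Matrix (Fin (k + 2)) (Fin (k + 2)) ℂ) 1 1 = 1 := by
      simp [Matrix.single_apply]
    have e6 : ∏ i : Fin k, (1 + Matrix.single 0 1 1 : Matrix (Fin (k + 2)) (Fin (k + 2)) ℂ)
        i.succ.succ i.succ.succ ^ mu i.succ.succ = 1 := by
      apply Finset.prod_eq_one
      intro i _
      have : (1 + Matrix.single 0 1 1 : Matrix (Fin (k + 2)) (Fin (k + 2)) ℂ)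
          i.succ.succ i.succ.succ = 1 := by
        rw [Matrix.add_apply, Matrix.one_apply_eq, Matrix.single_apply, if_neg]
        · simp
        · rintro ⟨h, _⟩
          exact absurd h (Fin.succ_ne_zero _).symm
      rw [this, one_pow]
    rw [e1, e1, ← ev_act, e2, ev_smul, e3, e4, e5, e6]
    simp only [one_mul, one_pow, mul_one]
    rw [hR]
  have hs1 : ∑ i ∈ Finset.range (R + 1), s ^ i • (if i ≤ N then D i else 0) x =
      ∑ i ∈ Finset.range (max R N + 1), s ^ i • (if i ≤ N then D i else 0) x := by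
    apply Finset.sum_subset
    · intro i hi
      rw [Finset.mem_range] at hi ⊢
      omega
    · intro i _ hi
      rw [Finset.mem_range] at hi
      by_cases h : i ≤ N
      · rw [if_pos h, hz i (by omega) h, smul_zero]
      · rw [if_neg h, LinearMap.zero_apply, smul_zero]
  have hs2 : ∑ i ∈ Finset.range (N + 1), s ^ i • (if i ≤ N then D i else 0) x =
      ∑ i ∈ Finset.range (max R N + 1), s ^ i • (if i ≤ N then D i else 0) x := by
    apply Finset.sum_subset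
    · intro i hi
      rw [Finset.mem_range] at hi ⊢
      omega
    · intro i _ hi
      rw [Finset.mem_range] at hi
      rw [if_neg (by omega), LinearMap.zero_apply, smul_zero]
  rw [hs1, ← hs2, hD]
  apply Finset.sum_congr rfl
  intro i hi
  rw [Finset.mem_range] at hi
  rw [if_pos (by omega)]

end Vale.Agent.P181.BAL.H676
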