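import Vale.Agent.P181.BAL.H676.Transfer
import Vale.Agent.P181.BAL.H935.Line
import Vale.Agent.P181.BAL.H809.Law
import Vale.Agent.P181.BAL.H648.ContrDeg
import Vale.Agent.P181.BAL.H708.Fam
import Vale.Agent.P181.BAL.H368.NineK

set_option autoImplicit false

/-!
# P181, BAL (helper676): everything except the nine letters
-/

namespace Vale.Agent.P181.BAL.H676

open Vale.Agent.P181.BAL

/-- The transfer without hypotheses. -/
theorem transfer_closed : Transfer := transfer H935.line H809.law H648.contrB H648.degB

/-- Balancing from the nine letters. -/
theorem balance_of (h : Nine) : Balance := balance transfer_closed (H708.fam (H368.nineK h))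

end Vale.Agent.P181.BAL.H676
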