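import Vale.Agent.P181.BAL.H676.Base

set_option autoImplicit false

open scoped TensorProduct

/-!
# P181, BAL (helper676): the transfer (B5)
-/

namespace Vale.Agent.P181.BAL.H676

open Vale.Agent.P181 Vale.Agent.P181.H280 Vale.Agent.P181.H54 Vale.Agent.P181.FR Vale.Agent.P181.BAL

variable {a b B k n : ℕ}

lemma ctr_smul (R r : ℕ) (c d : ℂ) (p q : ℕ → ℂ) :
    ctr R r (fun i => c * p i) (fun i => d * q i) = c * d * ctr R r p q := by
  unfold ctr
  rw [Finset.mul_sum]
  apply Finset.sum_congr rfl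
  intro i _
  ring

lemma exists_T (D : ℕ → (Pleth b a n →ₗ[ℂ] Pleth b a n)) (R r : ℕ) (y : ℕ → Pleth B a n) :
    ∃ T : Pleth b a n →ₗ[ℂ] Pleth (b + B) a n,
      ∀ (φ : Module.Dual ℂ (Sym[ℂ]^a (Fin n → ℂ))) (x : Pleth b a n),
        ev φ (T x) = ctr R r (fun i => ev φ (D i x)) (fun i => ev φ (y i)) := by
  choose L hL using fun i => exists_mulE (b := b) (y i)
  refine ⟨∑ i ∈ Finset.range (r + 1),
    ((-1) ^ i * (i.factorial : ℂ) * ((R - i).factorial : ℂ)) • (L (r - i) ∘ₗ D i), ?_⟩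
  intro φ x
  rw [LinearMap.sum_apply, ev_sum, ctr]
  apply Finset.sum_congr rfl
  intro i _
  rw [LinearMap.smul_apply, ev_smul, LinearMap.comp_apply, hL]
  ring

instance finite_Pleth : Module.Finite ℂ (Pleth b a n) :=
  inferInstanceAs (Module.Finite ℂ (Sym[ℂ]^b (Sym[ℂ]^a (Fin n → ℂ))))

lemma finrank_le_pow {M N : Type} [AddCommMonoid M] [Module ℂ M] [AddCommMonoid N] [Module ℂ N]
    [Module.Finite ℂ N] (r : ℕ) (T : Fin r → M →ₗ[ℂ] N) (S : Submodule ℂ M) (S' : Submodule ℂ N)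
    (hST : ∀ j, ∀ x ∈ S, T j x ∈ S') (hinj : ∀ x ∈ S, (∀ j, T j x = 0) → x = 0) :
    Module.finrank ℂ S ≤ r * Module.finrank ℂ S' := by
  letI := Module.addCommMonoidToAddCommGroup ℂ (M := M)
  letI := Module.addCommMonoidToAddCommGroup ℂ (M := N)
  let g : S →ₗ[ℂ] (Fin r → S') :=
    LinearMap.pi fun j => ((T j).domRestrict S).codRestrict S' (fun x => hST j x x.2)
  have hg : Function.Injective g := by
    rw [injective_iff_map_eq_zero]
    intro x hx
    refine Subtype.ext (hinj x x.2 fun j => ?_)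
    exact congrArg Subtype.val (congrFun hx j)
  have h := LinearMap.finrank_le_finrank_of_injective hg
  rw [Module.finrank_pi_fintype, Finset.sum_const, Finset.card_univ, Fintype.card_fin,
    smul_eq_mul] at h
  exact h

lemma ev_line (φ ψ : Module.Dual ℂ (Sym[ℂ]^a (Fin n → ℂ))) (x : Pleth b a n) :
    ∃ q : Polynomial ℂ, ∀ t : ℂ, q.eval t = ev (φ + t • ψ) x :=
  pv_line (x : Sym[ℂ]^b (Sym[ℂ]^a (Fin n → ℂ))) φ ψ

/-- The vanishing argument. -/
lemma ev_eq_zero_of {R r : ℕ} {x : Pleth b a n} {D : ℕ → (Pleth b a n →ₗ[ℂ] Pleth b a n)}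
    {y : Fin (r + 1) → ℕ → Pleth B a n} (h0 : ∀ φ, ev φ x = ev φ (D 0 x))
    (hT : ∀ φ j, ctr R r (fun i => ev φ (D i x)) (fun i => ev φ (y j i)) = 0)
    (φ : Module.Dual ℂ (Sym[ℂ]^a (Fin n → ℂ)))
    (hdet : (Matrix.of fun (j i : Fin (r + 1)) => ev φ (y j i)).det ≠ 0) : ev φ x = 0 := by
  set Q : Matrix (Fin (r + 1)) (Fin (r + 1)) ℂ := Matrix.of fun j i => ev φ (y j i) with hQ
  set c : Fin (r + 1) → ℂ := Matrix.vecMul (Pi.single (Fin.last r) 1) Q⁻¹ with hc
  have hcQ : Matrix.vecMul c Q = Pi.single (Fin.last r) 1 := by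
    rw [hc, Matrix.vecMul_vecMul, Matrix.nonsing_inv_mul _ (isUnit_iff_ne_zero.2 hdet),
      Matrix.vecMul_one]
  have h1 : ∀ i : ℕ, i < r + 1 → ∑ j, c j * ev φ (y j i) = if i = r then 1 else 0 := by
    intro i hi
    have h2 := congrFun hcQ ⟨i, hi⟩
    rw [Matrix.vecMul, dotProduct] at h2
    simp only [hQ, Matrix.of_apply] at h2
    rw [h2, Pi.single_apply]
    simp only [Fin.ext_iff, Fin.val_last]
  have h3 : ∑ j, c j * ctr R r (fun i => ev φ (D i x)) (fun i => ev φ (y j i)) =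
      (R.factorial : ℂ) * ev φ (D 0 x) := by
    unfold ctr
    simp only [Finset.mul_sum]
    rw [Finset.sum_comm]
    rw [Finset.sum_eq_single_of_mem 0 (Finset.mem_range.2 (Nat.succ_pos r))]
    · have h4 := h1 r (Nat.lt_succ_self r)
      rw [if_pos rfl] at h4
      simp only [pow_zero, Nat.factorial_zero, Nat.cast_one, mul_one, one_mul, Nat.sub_zero]
      have h5 : ∀ j, c j * ((R.factorial : ℂ) * ev φ (D 0 x) * ev φ (y j r)) =
          (R.factorial : ℂ) * ev φ (D 0 x) * (c j * ev φ (y j r)) := fun j => by ring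
      rw [Finset.sum_congr rfl (fun j _ => h5 j), ← Finset.mul_sum, h4, mul_one]
    · intro i hi hi0
      rw [Finset.mem_range] at hi
      have h4 := h1 (r - i) (by omega)
      rw [if_neg (by omega)] at h4
      have h5 : ∀ j, c j * ((-1) ^ i * (i.factorial : ℂ) * ((R - i).factorial : ℂ) *
          ev φ (D i x) * ev φ (y j (r - i))) =
          ((-1) ^ i * (i.factorial : ℂ) * ((R - i).factorial : ℂ) * ev φ (D i x)) *
          (c j * ev φ (y j (r - i))) := fun j => by ring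
      rw [Finset.sum_congr rfl (fun j _ => h5 j), ← Finset.mul_sum, h4, mul_zero]
  have h6 : ∑ j, c j * ctr R r (fun i => ev φ (D i x)) (fun i => ev φ (y j i)) = 0 := by
    apply Finset.sum_eq_zero
    intro j _
    rw [hT φ j, mul_zero]
  rw [h6] at h3
  rw [h0 φ]
  exact (mul_eq_zero.1 h3.symm).resolve_left (by exact_mod_cast R.factorial_ne_zero)

lemma eq_zero_of {R r : ℕ} {x : Pleth b a n} {D : ℕ → (Pleth b a n →ₗ[ℂ] Pleth b a n)}
    {y : Fin (r + 1) → ℕ → Pleth B a n} (h0 : ∀ φ, ev φ x = ev φ (D 0 x))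
    (hT : ∀ φ j, ctr R r (fun i => ev φ (D i x)) (fun i => ev φ (y j i)) = 0)
    (φ1 : Module.Dual ℂ (Sym[ℂ]^a (Fin n → ℂ)))
    (hdet : (Matrix.of fun (j i : Fin (r + 1)) => ev φ1 (y j i)).det ≠ 0) : x = 0 := by
  apply ev_inj
  intro φ
  rw [ev_zero]
  obtain ⟨P, hP⟩ := ev_line φ (φ1 - φ) x
  choose q hq using fun (j i : Fin (r + 1)) => ev_line φ (φ1 - φ) (y j i)
  set Δ : Polynomial ℂ := (Matrix.of q).det with hΔ
  have hev : ∀ t : ℂ, Δ.eval t =
      (Matrix.of fun (j i : Fin (r + 1)) => ev (φ + t • (φ1 - φ)) (y j i)).det := by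
    intro t
    have h1 := RingHom.map_det (Polynomial.evalRingHom t) (Matrix.of q)
    rw [Polynomial.coe_evalRingHom] at h1
    rw [hΔ, h1]
    congr 1
    ext j i
    simp only [RingHom.mapMatrix_apply, Matrix.map_apply, Matrix.of_apply,
      Polynomial.coe_evalRingHom]
    exact hq j i t
  have hΔ0 : Δ ≠ 0 := by
    intro h
    have h1 := hev 1
    rw [h, Polynomial.eval_zero, one_smul, add_sub_cancel] at h1
    exact hdet h1.symm
  have hprod : Δ * P = 0 := by
    apply Polynomial.funext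
    intro t
    rw [Polynomial.eval_mul, Polynomial.eval_zero, hP]
    by_cases h : Δ.eval t = 0
    · rw [h, zero_mul]
    · rw [ev_eq_zero_of h0 hT (φ + t • (φ1 - φ)) (by rwa [← hev]), mul_zero]
  have hP0 := (mul_eq_zero.1 hprod).resolve_left hΔ0
  have h2 := hP 0
  rw [hP0, Polynomial.eval_zero, zero_smul, add_zero] at h2
  exact h2.symm

/-- **(B5)** -/
theorem transfer (h1 : Line) (h2 : Law) (h3 : Contr) (h4 : Deg) : Transfer := by
  intro a b B k r mu nu lam g hnu hmu hl0 hl1 hl2 hg hφ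
  have hmu' : mu 1 ≤ mu 0 := by omega
  have hnu' : nu 1 ≤ nu 0 := by omega
  obtain ⟨Df, hDf⟩ := line_hw (b := b) (a := a) h1 h2 h4 hmu'
  obtain ⟨Dg, hDg⟩ := line_hw (b := B) (a := a) h1 h2 h4 hnu'
  have hR : nu 0 - nu 1 = r := by omega
  rw [hR] at hDg
  obtain ⟨R, hRdef⟩ : ∃ R, R = mu 0 - mu 1 := ⟨_, rfl⟩
  rw [← hRdef] at hDf
  have hrR : r ≤ R := by omega
  choose T hT using fun j => exists_T (n := k + 2) (b := b) Df R r (fun i => Dg i (g j))
  have lf : ∀ x ∈ hwSpace mu (plethAct b a (k + 2)), ∀ φ s,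
      ev φ (plethAct b a (k + 2) (ns k s) x) =
        ∑ i ∈ Finset.range (R + 1), ev φ (Df i x) * s ^ i := by
    intro x hx φ s
    rw [hDf x hx, ev_sum]
    apply Finset.sum_congr rfl
    intro i _
    rw [ev_smul, mul_comm]
  have lg : ∀ j φ s, ev φ (plethAct B a (k + 2) (ns k s) (g j)) =
      ∑ i ∈ Finset.range (r + 1), ev φ (Dg i (g j)) * s ^ i := by
    intro j φ s
    rw [hDg _ (hg j), ev_sum]
    apply Finset.sum_congr rfl
    intro i _
    rw [ev_smul, mul_comm]
  refine finrank_le_pow (r + 1) T _ _ ?_ ?_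
  · intro j x hx G hG
    apply ev_inj
    intro φ
    rw [ev_act, hT, ev_smul, hT]
    set χf : ℂ := (G 0 0 * G 1 1) ^ mu 1 * ∏ i : Fin k, G i.succ.succ i.succ.succ ^ mu i.succ.succ
      with hχf
    set χg : ℂ := (G 0 0 * G 1 1) ^ nu 1 * ∏ i : Fin k, G i.succ.succ i.succ.succ ^ nu i.succ.succ
      with hχg
    have h5 := h3 R r (fun i => χf * ev φ (Df i x))
      (fun i => ev (φ ∘ₗ symMap a (Matrix.toLin' G)) (Df i x))
      (fun i => χg * ev φ (Dg i (g j)))
      (fun i => ev (φ ∘ₗ symMap a (Matrix.toLin' G)) (Dg i (g j)))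
      (G 0 0) (G 0 1) (G 1 1) hrR (hG.2 0) (hG.2 1) ?_ ?_
    · rw [h5, ctr_smul, hχf, hχg]
      have e1 : ∏ i, G i i ^ lam i = G 0 0 ^ lam 0 * (G 1 1 ^ lam 1 *
          ∏ i : Fin k, G i.succ.succ i.succ.succ ^ lam i.succ.succ) := by
        rw [Fin.prod_univ_succ, Fin.prod_univ_succ]
        rfl
      have e2 : ∏ i : Fin k, G i.succ.succ i.succ.succ ^ lam i.succ.succ =
          (∏ i : Fin k, G i.succ.succ i.succ.succ ^ mu i.succ.succ) *
            ∏ i : Fin k, G i.succ.succ i.succ.succ ^ nu i.succ.succ := by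
        rw [← Finset.prod_mul_distrib]
        apply Finset.prod_congr rfl
        intro i _
        rw [hl2 i, pow_add]
      rw [e1, e2, hl0, hl1]
      have e3 : mu 0 = R + mu 1 := by omega
      have e4 : nu 0 = r + nu 1 := by omega
      rw [e3, e4]
      simp only [pow_add, mul_pow]
      ring
    · intro s hs
      rw [← lf x hx, ← ev_act, h2 a b k mu x hx hmu' G hG s hs, ev_smul, lf x hx, ← hRdef]
      rw [← hχf, Finset.mul_sum, Finset.mul_sum]
      apply Finset.sum_congr rfl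
      intro i _
      ring
    · intro s hs
      rw [← lg j, ← ev_act, h2 a B k nu (g j) (hg j) hnu' G hG s hs, ev_smul, lg j, hR]
      rw [← hχg, Finset.mul_sum, Finset.mul_sum]
      apply Finset.sum_congr rfl
      intro i _
      ring
  · intro x hx h0
    obtain ⟨φ1, hli⟩ := hφ
    refine eq_zero_of (R := R) (r := r) (D := Df) (y := fun j i => Dg i (g j)) ?_ ?_ φ1 ?_
    · intro φ
      have h5 := lf x hx φ 0
      rw [ns_zero, act_one, Finset.sum_eq_single_of_mem 0 (Finset.mem_range.2 (Nat.succ_pos R))]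
        at h5
      · rw [h5, pow_zero, mul_one]
      · intro i _ hi
        rw [zero_pow hi, mul_zero]
    · intro φ j
      rw [← hT, h0 j, ev_zero]
    · intro hdet
      obtain ⟨v, hv0, hv⟩ := Matrix.exists_vecMul_eq_zero_iff.2 hdet
      apply hv0
      rw [Fintype.linearIndependent_iff] at hli
      funext j0
      refine hli v ?_ j0
      funext s
      rw [Finset.sum_apply, Pi.zero_apply]
      simp only [Pi.smul_apply, smul_eq_mul]
      simp only [lg, Finset.mul_sum]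
      rw [Finset.sum_comm]
      apply Finset.sum_eq_zero
      intro i hi
      have h6 := congrFun hv ⟨i, Finset.mem_range.1 hi⟩
      rw [Matrix.vecMul, dotProduct, Pi.zero_apply] at h6
      simp only [Matrix.of_apply] at h6
      have h7 : ∀ j, v j * (ev φ1 (Dg i (g j)) * s ^ i) = v j * ev φ1 (Dg i (g j)) * s ^ i :=
        fun j => by ring
      rw [Finset.sum_congr rfl (fun j _ => h7 j), ← Finset.sum_mul, h6, zero_mul]

/-- **(B9)** -/
theorem balance (h5 : Transfer) (h8 : Fam) : Balance := by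
  intro a b k K mu lam ha h1 h2 h3 h4
  obtain ⟨g, hg, hφ⟩ := h8 a k K ha
  have e0 : nuK a K k 0 = K * (5 * a - 6) := by
    simp [nuK]
  have e1 : nuK a K k 1 = K * (4 * a + 6) := by
    simp [nuK]
  have e2 : ∀ i : Fin k, nuK a K k i.succ.succ = 0 := by
    intro i
    simp [nuK]
  refine h5 a b (9 * K) k (K * (a - 12)) mu (nuK a K k) lam g ?_ h1 ?_ ?_ ?_ hg hφ
  · rw [e0, e1, ← Nat.mul_add]
    congr 1
    omega
  · rw [e1, h2]
  · rw [e0, h3]
  · intro i
    rw [e2, h4, add_zero]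

end Vale.Agent.P181.BAL.H676
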