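import Vale.Agent.P181.TL.H850.JoinP
import Vale.Agent.P181.BAL.H410.T9D

set_option autoImplicit false

/-!
# P181, BAL (helper676): the union

`w = dn lam 1`, `D = dn lam 2`. Every theorem for `C w ≤ a b` extends to `C D ≤ a b`, since in
between there are two long rows and a gap `λ_2 - λ_3 ≥ a ^ 2`.
-/

namespace Vale.Agent.P181.BAL.H676

open Vale.Agent.P181.H280 (plethMult)
open Vale.Agent.P181.PL (dn)
open Vale.Agent.P181.TL
open Vale.Agent.P181.TL.H850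

/-- `b ≥ C a`, few boxes below row one. -/
def WAll : Prop := ∃ (C : ℝ) (c : ℕ), 0 < C ∧ ∀ a b : ℕ, C * a ≤ b →
  ∀ (n : ℕ) (lam : Fin n → ℕ), C * (dn lam 1 : ℝ) ≤ a * b →
  (C * (1 + Real.log a) ^ c * a ≤ (dn lam 2 : ℝ) ∨ a + dn lam 2 ≤ b + 1) →
  plethMult a b n lam ≤ plethMult b a n lam

/-- `b ≥ C a`, few boxes below row two. -/
def DAll : Prop := ∃ (C : ℝ) (c : ℕ), 0 < C ∧ ∀ a b : ℕ, C * a ≤ b →
  ∀ (n : ℕ) (lam : Fin n → ℕ), C * (dn lam 2 : ℝ) ≤ a * b →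
  (C * (1 + Real.log a) ^ c * a ≤ (dn lam 2 : ℝ) ∨ a + dn lam 2 ≤ b + 1) →
  plethMult a b n lam ≤ plethMult b a n lam

theorem dAll (hW : WAll) (hD : H410.TwoLongPD) : DAll := by
  obtain ⟨C₀, c₀, hC₀, h0⟩ := hW
  obtain ⟨C₁, c₁, hC₁, hc₁, h1⟩ := hD 1 0 one_pos le_rfl
  obtain ⟨C, hCdef⟩ : ∃ C : ℝ, C = 4 * C₀ + C₁ + 1000 := ⟨_, rfl⟩
  have hC : 0 < C := by rw [hCdef]; positivity
  have hC0 : C₀ ≤ C := by rw [hCdef]; linarith
  have hC1 : C₁ ≤ C := by rw [hCdef]; linarith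
  refine ⟨C, max c₀ ⌈c₁⌉₊, hC, fun a b hab n lam hd hh => ?_⟩
  have ha0 : (0 : ℝ) ≤ a := Nat.cast_nonneg _
  have hb0 : (0 : ℝ) ≤ b := Nat.cast_nonneg _
  obtain ⟨L, hLdef⟩ : ∃ L : ℝ, L = 1 + Real.log a := ⟨_, rfl⟩
  have hL1 : 1 ≤ L := by
    rw [hLdef]
    linarith [Real.log_natCast_nonneg a]
  rw [← hLdef] at hh
  have h2 : C₀ * L ^ c₀ * a ≤ (dn lam 2 : ℝ) ∨ a + dn lam 2 ≤ b + 1 := by
    rcases hh with hh | hh
    · left
      refine le_trans ?_ hh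
      have e : L ^ c₀ ≤ L ^ (max c₀ ⌈c₁⌉₊) := pow_le_pow_right₀ hL1 (le_max_left _ _)
      exact mul_le_mul_of_nonneg_right (mul_le_mul hC0 e (by positivity) hC.le) ha0
    · exact Or.inr hh
  by_cases hw : C₀ * (dn lam 1 : ℝ) ≤ a * b
  · refine h0 a b ?_ n lam hw ?_
    · exact le_trans (mul_le_mul_of_nonneg_right hC0 ha0) hab
    · rw [← hLdef]
      exact h2
  push Not at hw
  by_cases hz : plethMult a b n lam = 0
  · rw [hz]
    exact Nat.zero_le _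
  have hw0 : 0 < dn lam 1 := by
    by_contra hcon
    rw [show dn lam 1 = 0 by omega, Nat.cast_zero, mul_zero] at hw
    have : (0 : ℝ) ≤ a * b := by positivity
    linarith
  obtain ⟨hn, ha⟩ := shape hz hw0
  obtain ⟨hanti, hsum, -⟩ := H530.zero_stmt a b n lam hz
  rcases hh with hh | hh
  swap
  · obtain ⟨k, rfl⟩ := Nat.exists_eq_add_of_le' hn
    rw [dn_two] at hh
    exact few lam ha hh
  rcases Nat.lt_or_ge n 3 with h3 | h3
  · obtain rfl : n = 0 + 2 := by omega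
    refine few lam ha ?_
    have e1 : dn2 lam = 0 := rfl
    have e2 : (a : ℝ) ≤ b := by
      have : (1 : ℝ) * a ≤ C * a := mul_le_mul_of_nonneg_right (by rw [hCdef]; linarith) ha0
      linarith
    have e3 : a ≤ b := by exact_mod_cast e2
    omega
  obtain ⟨k, rfl⟩ := Nat.exists_eq_add_of_le' h3
  have e23 := dn_two_three lam
  have e2 : dn lam 2 = dn2 (k := k + 1) lam := dn_two (k := k + 1) lam
  have e1 : dn lam 1 = lam 1 + dn2 (k := k + 1) lam := dn_one (k := k + 1) lam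
  have ha1 : (1 : ℝ) ≤ a := by exact_mod_cast (by omega : 1 ≤ a)
  have hab1 : (a : ℝ) ^ 2 * C ≤ a * b := by nlinarith
  refine h1 a b k lam hanti hsum (by omega) ?_ ?_ ?_ ?_
  · have : (1000 : ℝ) * a ≤ b := by
      have : (1000 : ℝ) * a ≤ C * a := mul_le_mul_of_nonneg_right (by rw [hCdef]; linarith) ha0
      linarith
    exact_mod_cast this
  · rw [Real.rpow_zero, one_mul, one_mul]
    have e4 : ((dn lam 2 : ℕ) : ℝ) = (lam 2 : ℝ) + (dn lam 3 : ℝ) := by exact_mod_cast e23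
    have e5 : ((dn lam 1 : ℕ) : ℝ) = (lam 1 : ℝ) + (dn lam 2 : ℝ) := by
      rw [e2]
      exact_mod_cast e1
    have e6 : (0 : ℝ) ≤ dn lam 3 := Nat.cast_nonneg _
    have e7 : 4 * C₀ * (dn lam 2 : ℝ) ≤ a * b := by
      refine le_trans ?_ hd
      exact mul_le_mul_of_nonneg_right (by rw [hCdef]; linarith) (Nat.cast_nonneg _)
    have e8 : (a : ℝ) ^ 2 * (4 * C₀) ≤ a * b := by
      refine le_trans ?_ hab1
      exact mul_le_mul_of_nonneg_left (by rw [hCdef]; linarith) (by positivity)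
    -- `C₀ (λ_2 - λ_3) ≥ C₀ w - 2 C₀ D ≥ a b - a b / 2`
    have e9 : C₀ * ((lam 1 : ℝ) - lam 2) ≥ a * b / 2 := by nlinarith
    have e10 : C₀ * (a : ℝ) ^ 2 ≤ C₀ * ((lam 1 : ℝ) - lam 2) := by nlinarith
    exact le_of_mul_le_mul_left e10 hC₀
  · rw [← e2, ← hLdef]
    refine le_trans ?_ hh
    have e6 : L ^ c₁ ≤ L ^ (max c₀ ⌈c₁⌉₊) := by
      rw [← Real.rpow_natCast]
      refine Real.rpow_le_rpow_of_exponent_le hL1 ?_
      refine (Nat.le_ceil c₁).trans ?_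
      exact_mod_cast le_max_right _ _
    exact mul_le_mul_of_nonneg_right (mul_le_mul hC1 e6 (by positivity) hC.le) ha0
  · rw [← e2]
    have : (1000 : ℝ) * dn lam 2 ≤ a * b := by
      refine le_trans ?_ hd
      exact mul_le_mul_of_nonneg_right (by rw [hCdef]; linarith) (Nat.cast_nonneg _)
    exact_mod_cast this

end Vale.Agent.P181.BAL.H676
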