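import Vale.Agent.P181.TL.H850.JoinP
import Vale.Agent.P181.BAL.H410.T9D
import Vale.Agent.P181.TR.Defs

set_option autoImplicit false

/-!
# P181, BAL (helper676): the union, explicit form

`D = dn lam 2`. The dominating first row of `TR.TLX` is replaced by `1000 D ≤ a b`.
-/

namespace Vale.Agent.P181.BAL.H676

open Vale.Agent.P181.H280 (plethMult)
open Vale.Agent.P181.PL (dn)
open Vale.Agent.P181.TL
open Vale.Agent.P181.TL.H850

/-- `b ≥ 1000 a`, few boxes below row two. -/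
def XAll : Prop := ∃ (C : ℝ) (c : ℕ), 0 < C ∧ ∀ a b : ℕ, 1000 * a ≤ b →
  ∀ (n : ℕ) (lam : Fin n → ℕ), 1000 * dn lam 2 ≤ a * b →
  (C * (1 + Real.log a) ^ c * a ≤ (dn lam 2 : ℝ) ∨ a + dn lam 2 ≤ b + 1) →
  plethMult a b n lam ≤ plethMult b a n lam

theorem xAll (hX : TR.TLX) (hD : H410.TwoLongPD) : XAll := by
  obtain ⟨C₀, c₀, hC₀, h0⟩ := hX
  obtain ⟨C₁, c₁, hC₁, hc₁, h1⟩ := hD 1 0 one_pos le_rfl
  obtain ⟨C, hCdef⟩ : ∃ C : ℝ, C = C₀ + C₁ := ⟨_, rfl⟩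
  have hC : 0 < C := by rw [hCdef]; positivity
  have hC0 : C₀ ≤ C := by rw [hCdef]; linarith
  have hC1 : C₁ ≤ C := by rw [hCdef]; linarith
  refine ⟨C, max c₀ ⌈c₁⌉₊, hC, fun a b hab n lam hd hh => ?_⟩
  have ha0 : (0 : ℝ) ≤ a := Nat.cast_nonneg _
  obtain ⟨L, hLdef⟩ : ∃ L : ℝ, L = 1 + Real.log a := ⟨_, rfl⟩
  have hL1 : 1 ≤ L := by
    rw [hLdef]
    linarith [Real.log_natCast_nonneg a]
  rw [← hLdef] at hh
  have hDD : TR.D2 lam = dn lam 2 := rfl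
  have h2 : C₀ * L ^ c₀ * a ≤ (TR.D2 lam : ℝ) ∨ a + TR.D2 lam ≤ b + 1 := by
    rw [hDD]
    rcases hh with hh | hh
    · left
      refine le_trans ?_ hh
      have e : L ^ c₀ ≤ L ^ (max c₀ ⌈c₁⌉₊) := pow_le_pow_right₀ hL1 (le_max_left _ _)
      exact mul_le_mul_of_nonneg_right (mul_le_mul hC0 e (by positivity) hC.le) ha0
    · exact Or.inr hh
  by_cases hdom : ∀ h : 1 < n, lam ⟨1, h⟩ + 60 * TR.D2 lam + 17 * a ^ 2 ≤ lam ⟨0, by omega⟩
  · refine h0 a b (by omega) n lam hdom ?_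
    rw [← hLdef]
    exact h2
  push Not at hdom
  obtain ⟨hn1, hdom⟩ := hdom
  by_cases hz : plethMult a b n lam = 0
  · rw [hz]
    exact Nat.zero_le _
  obtain ⟨hanti, hsum, -⟩ := H530.zero_stmt a b n lam hz
  have hn : 2 ≤ n := hn1
  obtain ⟨k, rfl⟩ := Nat.exists_eq_add_of_le' hn
  have f2 : dn lam 2 = dn2 lam := dn_two lam
  have f0 : ∑ i, lam i = lam 0 + (lam 1 + dn2 lam) := sum_eq lam
  have hdom' : lam 0 < lam 1 + 60 * dn2 lam + 17 * a ^ 2 := by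
    have e := hdom
    rw [hDD, f2] at e
    exact e
  have hab2 : 1000 * a ^ 2 ≤ a * b := by nlinarith
  rw [f2] at hd
  have hw0 : 0 < dn lam 1 := by
    have f1 : dn lam 1 = lam 1 + dn2 lam := dn_one lam
    by_contra hcon
    have e1 : lam 1 = 0 := by omega
    have e2 : dn2 lam = 0 := by omega
    omega
  obtain ⟨-, ha⟩ := shape hz hw0
  rcases hh with hh | hh
  swap
  · rw [f2] at hh
    exact few lam ha hh
  rcases Nat.lt_or_ge (k + 2) 3 with h3 | h3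
  · obtain rfl : k = 0 := by omega
    refine few lam ha ?_
    have e1 : dn2 lam = 0 := rfl
    omega
  obtain ⟨k, rfl⟩ : ∃ k', k = k' + 1 := ⟨k - 1, by omega⟩
  have e23 : dn lam 2 = lam 2 + dn lam 3 := dn_two_three lam
  have g0 : ∑ i, lam i = lam 0 + (lam 1 + dn2 (k := k + 1) lam) := sum_eq (k := k + 1) lam
  have g2 : dn lam 2 = dn2 (k := k + 1) lam := dn_two (k := k + 1) lam
  have hlam2 : lam 2 ≤ dn2 (k := k + 1) lam := by omega
  have hgap : a ^ 2 + lam 2 ≤ lam 1 := by omega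
  refine h1 a b k lam hanti hsum (by omega) hab ?_ ?_ hd
  · rw [Real.rpow_zero, one_mul, one_mul]
    have : ((a : ℝ)) ^ 2 + (lam 2 : ℝ) ≤ (lam 1 : ℝ) := by exact_mod_cast hgap
    linarith
  · rw [← g2, ← hLdef]
    refine le_trans ?_ hh
    have e6 : L ^ c₁ ≤ L ^ (max c₀ ⌈c₁⌉₊) := by
      rw [← Real.rpow_natCast]
      refine Real.rpow_le_rpow_of_exponent_le hL1 ?_
      refine (Nat.le_ceil c₁).trans ?_
      exact_mod_cast le_max_right _ _
    exact mul_le_mul_of_nonneg_right (mul_le_mul hC1 e6 (by positivity) hC.le) ha0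

end Vale.Agent.P181.BAL.H676
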