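import Vale.Agent.P181.BAL.H676.Union
import Vale.Agent.P181.BAL.H676.UnionX
import Vale.Agent.P181.TL.H976.Two

set_option autoImplicit false

/-!
# P181, BAL (helper676): `b ≥ C a`, `θ a ^ 2 ≤ w`, `C D ≤ a b`

`w = dn lam 1`, `D = dn lam 2`. No logarithm and no other condition.
-/

namespace Vale.Agent.P181.BAL.H676

open Vale.Agent.P181.H280 (plethMult)
open Vale.Agent.P181.PL (dn)
open Vale.Agent.P181.TL
open Vale.Agent.P181.TL.H850
open Vale.Agent.P181.TL.H976 (NearLin exists_polylog_le)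

theorem dAll_of_xAll (h : XAll) : DAll := by
  obtain ⟨C₀, c₀, hC₀, h0⟩ := h
  refine ⟨C₀ + 1000, c₀, by positivity, fun a b hab n lam hd hh => ?_⟩
  have ha0 : (0 : ℝ) ≤ a := Nat.cast_nonneg _
  have hL1 : (1 : ℝ) ≤ 1 + Real.log a := by linarith [Real.log_natCast_nonneg a]
  refine h0 a b ?_ n lam ?_ ?_
  · have : (1000 : ℝ) * a ≤ b := by
      have : (1000 : ℝ) * a ≤ (C₀ + 1000) * a := mul_le_mul_of_nonneg_right (by linarith) ha0
      linarith
    exact_mod_cast this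
  · have : (1000 : ℝ) * dn lam 2 ≤ a * b := by
      refine le_trans ?_ hd
      exact mul_le_mul_of_nonneg_right (by linarith) (Nat.cast_nonneg _)
    exact_mod_cast this
  · rcases hh with hh | hh
    · left
      refine le_trans ?_ hh
      exact mul_le_mul_of_nonneg_right (mul_le_mul_of_nonneg_right (by linarith) (by positivity))
        ha0
    · exact Or.inr hh

/-- `b ≥ C a`, all shapes with at least `θ a ^ 2` boxes below row one and at most `a b / C` boxes
below row two. -/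
def YAll : Prop := ∀ θ : ℝ, 0 < θ → ∃ C : ℝ, 0 < C ∧ ∀ a b : ℕ, C * a ≤ b →
  ∀ (n : ℕ) (lam : Fin n → ℕ), θ * (a : ℝ) ^ 2 ≤ (dn lam 1 : ℝ) →
  C * (dn lam 2 : ℝ) ≤ a * b → plethMult a b n lam ≤ plethMult b a n lam

theorem yAll (hX : DAll) (hD : TwoLongD) (hP : NearLin) : YAll := by
  intro θ hθ
  obtain ⟨C₀, c₀, hC₀, h0⟩ := hX
  obtain ⟨C₁, hC₁, h1⟩ := hD (θ / 2) (by positivity)
  obtain ⟨C₂, c₂, h2⟩ := hP
  obtain ⟨A, hA⟩ := exists_polylog_le (4 * C₀ / θ) c₀
  obtain ⟨P, hPdef⟩ : ∃ P : ℝ, P = |C₂| * (1 + Real.log A) ^ c₂ := ⟨_, rfl⟩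
  have hLA : (1 : ℝ) ≤ 1 + Real.log A := by linarith [Real.log_natCast_nonneg A]
  have hP0 : 0 ≤ P := by rw [hPdef]; positivity
  obtain ⟨C, hCdef⟩ : ∃ C : ℝ, C = C₀ + C₁ + P + 1 := ⟨_, rfl⟩
  have hC : 0 < C := by rw [hCdef]; positivity
  refine ⟨C, hC, fun a b hab n lam hw hd => ?_⟩
  have ha0 : (0 : ℝ) ≤ a := Nat.cast_nonneg _
  have hL1 : (1 : ℝ) ≤ 1 + Real.log a := by linarith [Real.log_natCast_nonneg a]
  have mul_a : ∀ {x : ℝ}, x ≤ C → x * a ≤ b := fun h =>
    le_trans (mul_le_mul_of_nonneg_right h ha0) hab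
  have mul_d : ∀ {x : ℝ}, x ≤ C → x * (dn lam 2 : ℝ) ≤ a * b := fun h =>
    le_trans (mul_le_mul_of_nonneg_right h (Nat.cast_nonneg _)) hd
  rcases Nat.lt_or_ge a A with haA | haA
  · apply h2 a b
    have e1 : Real.log a ≤ Real.log A := by
      rcases Nat.eq_zero_or_pos a with h | h
      · rw [h, Nat.cast_zero, Real.log_zero]
        exact Real.log_natCast_nonneg A
      · exact Real.log_le_log (by exact_mod_cast h) (by exact_mod_cast haA.le)
    have e2 : (1 + Real.log a) ^ c₂ ≤ (1 + Real.log A) ^ c₂ :=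
      pow_le_pow_left₀ (by linarith) (by linarith) _
    calc C₂ * a * (1 + Real.log a) ^ c₂ ≤ |C₂| * a * (1 + Real.log a) ^ c₂ := by
          apply mul_le_mul_of_nonneg_right _ (by positivity)
          exact mul_le_mul_of_nonneg_right (le_abs_self _) ha0
      _ ≤ |C₂| * a * (1 + Real.log A) ^ c₂ := mul_le_mul_of_nonneg_left e2 (by positivity)
      _ = P * a := by rw [hPdef]; ring
      _ ≤ b := mul_a (by rw [hCdef]; linarith)
  by_cases hfew : a + dn lam 2 ≤ b + 1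
  · exact h0 a b (mul_a (by rw [hCdef]; linarith)) n lam (mul_d (by rw [hCdef]; linarith))
      (Or.inr hfew)
  by_cases hbig : C₀ * (1 + Real.log a) ^ c₀ * a ≤ (dn lam 2 : ℝ)
  · exact h0 a b (mul_a (by rw [hCdef]; linarith)) n lam (mul_d (by rw [hCdef]; linarith))
      (Or.inl hbig)
  push Not at hbig
  by_cases hz : plethMult a b n lam = 0
  · rw [hz]
    exact Nat.zero_le _
  have hab1 : a ≤ b := by
    have : (1 : ℝ) * a ≤ b := mul_a (by rw [hCdef]; linarith)
    rw [one_mul] at this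
    exact_mod_cast this
  have h3 : 3 ≤ n := by
    by_contra hcon
    have e : dn lam 2 = 0 := by
      unfold dn
      refine Finset.sum_eq_zero fun i _ => ?_
      rw [if_neg]
      have := i.2
      omega
    omega
  obtain ⟨hanti, hsum, -⟩ := H530.zero_stmt a b n lam hz
  obtain ⟨k, rfl⟩ := Nat.exists_eq_add_of_le' h3
  have e23 := dn_two_three lam
  have e2 : dn lam 2 = dn2 (k := k + 1) lam := dn_two (k := k + 1) lam
  have e1 : dn lam 1 = lam 1 + dn2 (k := k + 1) lam := dn_one (k := k + 1) lam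
  refine h1 a b k lam hanti hsum (mul_a (by rw [hCdef]; linarith)) ?_ ?_
  · have f1 : ((dn lam 1 : ℕ) : ℝ) = (lam 1 : ℝ) + (dn lam 2 : ℝ) := by
      rw [e2]
      exact_mod_cast e1
    have f2 : (lam 2 : ℝ) ≤ (dn lam 2 : ℝ) := by
      have : lam 2 ≤ dn lam 2 := by omega
      exact_mod_cast this
    have f3 : 4 * C₀ / θ * (1 + Real.log a) ^ c₀ ≤ a := hA a haA
    have f4 : 4 * (C₀ * (1 + Real.log a) ^ c₀) ≤ θ * a := by
      have := mul_le_mul_of_nonneg_left f3 hθ.le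
      have e : θ * (4 * C₀ / θ * (1 + Real.log a) ^ c₀) = 4 * (C₀ * (1 + Real.log a) ^ c₀) := by
        field_simp
      linarith
    have f5 : 4 * (C₀ * (1 + Real.log a) ^ c₀ * a) ≤ θ * (a : ℝ) ^ 2 := by nlinarith
    linarith
  · rw [← e2]
    exact mul_d (by rw [hCdef]; linarith)

end Vale.Agent.P181.BAL.H676
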